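import Vale.Agent.P307.Defs
import Mathlib.SetTheory.Cardinal.Arithmetic
import Mathlib.SetTheory.Cardinal.Cofinality.Ordinal

set_option linter.unusedSectionVars false

universe u v w

open Cardinal Set

namespace Vale.Agent.P307.R2.H301

/-- Closure points of cofinality `ω`. -/
theorem exists_closure_cof (g : Cardinal.{u} → Cardinal.{u}) (χ : Cardinal.{u}) :
    ∃ θ, χ < θ ∧ (∀ ρ < θ, g ρ < θ) ∧ θ.ord.cof = ℵ₀ := by
  let h : Cardinal.{u} → Cardinal.{u} := fun x =>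
    Order.succ (max x (⨆ ρ : Set.Iic x, g ρ.1))
  have h1 : ∀ x, x < h x := fun x => Order.lt_succ_of_le (le_max_left _ _)
  have h2 : ∀ x, ∀ ρ ≤ x, g ρ < h x := fun x ρ hρ => by
    refine Order.lt_succ_of_le (le_trans ?_ (le_max_right _ _))
    exact le_ciSup (f := fun ρ : Set.Iic x => g ρ.1) bddAbove_of_small ⟨ρ, hρ⟩
  let f : ℕ → Cardinal.{u} := fun n => Nat.rec (max χ ℵ₀) (fun _ x => h x) n
  have hf0 : f 0 = max χ ℵ₀ := rfl
  have hfs : ∀ n, f (n + 1) = h (f n) := fun n => rfl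
  have hbdd : BddAbove (Set.range f) := bddAbove_of_small
  have hmono : StrictMono f := strictMono_nat_of_lt_succ fun n => by
    rw [hfs]
    exact h1 _
  refine ⟨⨆ n, f n, ?_, ?_, ?_⟩
  · refine lt_of_lt_of_le ?_ (le_ciSup hbdd 1)
    exact (le_max_left χ ℵ₀).trans_lt (h1 (f 0))
  · intro ρ hρ
    obtain ⟨n, hn⟩ := (lt_ciSup_iff hbdd).1 hρ
    refine lt_of_lt_of_le ?_ (le_ciSup hbdd (n + 1))
    rw [hfs]
    exact h2 _ _ hn.le
  · rw [Ordinal.iSup_ord]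
    have h3 := Ordinal.lift_cof_iSup (f := fun n => (f n).ord) fun m n hmn => ord_lt_ord.2 (hmono hmn)
    simpa using h3

/-- Large initial segments. -/
theorem exists_Iio_ge {θ ρ : Cardinal.{u}} (hρ : ρ < θ) : ∃ z : θ.ord.ToType, ρ ≤ #(Iio z) := by
  refine ⟨Ordinal.ToType.mk ⟨ρ.ord, ord_lt_ord.2 hρ⟩, ?_⟩
  have h1 := Ordinal.card_typein (r := ((· < ·) : θ.ord.ToType → θ.ord.ToType → Prop))
    (Ordinal.ToType.mk ⟨ρ.ord, ord_lt_ord.2 hρ⟩)
  have h2 : Ordinal.typein ((· < ·) : θ.ord.ToType → θ.ord.ToType → Prop)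
      (Ordinal.ToType.mk ⟨ρ.ord, ord_lt_ord.2 hρ⟩) = ρ.ord := by
    have h3 := Ordinal.ToType.mk.symm_apply_apply
      (⟨ρ.ord, ord_lt_ord.2 hρ⟩ : Iio θ.ord)
    exact congrArg Subtype.val h3
  rw [h2, card_ord] at h1
  exact h1.le

theorem mk_Iio_lt' {θ : Cardinal.{u}} (z : θ.ord.ToType) : #(Iio z) < θ := by
  simpa using mk_Iio_lt z

/-- Filtrations of `θ` by long initial segments. -/
theorem exists_filt {θ : Cardinal.{u}} (h0 : ℵ₀ < θ) (hcof : θ.ord.cof = ℵ₀)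
    (hpow : ∀ ρ < θ, (2 : Cardinal.{u}) ^ ρ < θ) {F : Cardinal.{u} → Cardinal.{u}}
    (hF : ∀ ρ < θ, F ρ < θ) {l : Cardinal.{u}} (hl : l < θ) (z₀ : θ.ord.ToType) :
    ∃ a : ℕ → θ.ord.ToType, StrictMono a ∧ z₀ ≤ a 0 ∧ (∀ x, ∃ n, x < a n) ∧
      (∀ n, l ≤ #(Iio (a n))) ∧
      ∀ n, F #(Iio (a n)) ≤ #(Iio (a (n + 1)) \ Iio (a n) : Set θ.ord.ToType) := by
  have : NoMaxOrder θ.ord.ToType := Cardinal.noMaxOrder h0.le
  have step : ∀ c t : θ.ord.ToType, ∃ c', c < c' ∧ t < c' ∧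
      F #(Iio c) ≤ #(Iio c' \ Iio c : Set θ.ord.ToType) := by
    intro c t
    let ρ : Cardinal.{u} := max (F #(Iio c)) (max #(Iio c) ℵ₀)
    have hρ : ρ < θ := max_lt (hF _ (mk_Iio_lt' c)) (max_lt (mk_Iio_lt' c) h0)
    have hρ0 : ℵ₀ ≤ ρ := (le_max_right _ _).trans (le_max_right _ _)
    obtain ⟨z, hz⟩ := exists_Iio_ge (hpow ρ hρ)
    obtain ⟨y, hy⟩ := exists_gt (max c t)
    refine ⟨max z y, ((le_max_left _ _).trans_lt hy).trans_le (le_max_right _ _),
      ((le_max_right _ _).trans_lt hy).trans_le (le_max_right _ _), ?_⟩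
    by_contra hcon
    rw [not_le] at hcon
    have h1 : #(Iio (max z y)) ≤ ρ := by
      have h2 : (Iio (max z y) : Set θ.ord.ToType) ⊆ (Iio (max z y) \ Iio c) ∪ Iio c := by
        intro x hx
        by_cases hxc : x ∈ Iio c
        · exact Or.inr hxc
        · exact Or.inl ⟨hx, hxc⟩
      refine (mk_le_mk_of_subset h2).trans ((mk_union_le _ _).trans ?_)
      refine add_le_of_le hρ0 (hcon.le.trans (le_max_left _ _)) ?_
      exact (le_max_left _ _).trans (le_max_right _ _)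
    have h3 : (2 : Cardinal.{u}) ^ ρ ≤ ρ :=
      (hz.trans (mk_le_mk_of_subset (Iio_subset_Iio (le_max_left _ _)))).trans h1
    exact absurd h3 (not_le.2 (cantor ρ))
  choose st hst1 hst2 hst3 using step
  obtain ⟨s, hs, hsc⟩ := Order.exists_cof_eq θ.ord.ToType
  rw [Ordinal.cof_toType, hcof] at hsc
  have hs0 : s.Nonempty := by
    rw [nonempty_iff_ne_empty]
    rintro rfl
    rw [mk_eq_zero] at hsc
    exact aleph0_ne_zero hsc.symm
  have hscount : s.Countable := by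
    rw [← le_aleph0_iff_set_countable, hsc]
  obtain ⟨f, hf⟩ := hscount.exists_eq_range hs0
  obtain ⟨z₁, hz₁⟩ := exists_Iio_ge hl
  let a : ℕ → θ.ord.ToType := fun n => Nat.rec (max z₀ z₁) (fun n x => st x (f n)) n
  have ha0 : a 0 = max z₀ z₁ := rfl
  have has : ∀ n, a (n + 1) = st (a n) (f n) := fun n => rfl
  have hmono : StrictMono a := strictMono_nat_of_lt_succ fun n => by
    rw [has]
    exact hst1 _ _
  refine ⟨a, hmono, by rw [ha0]; exact le_max_left _ _, ?_, ?_, ?_⟩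
  · intro x
    obtain ⟨y, hy, hxy⟩ := hs x
    rw [hf] at hy
    obtain ⟨n, rfl⟩ := hy
    refine ⟨n + 1, ?_⟩
    rw [has]
    exact hxy.trans_lt (hst2 _ _)
  · intro n
    refine hz₁.trans (mk_le_mk_of_subset (Iio_subset_Iio ?_))
    have h1 : a 0 ≤ a n := hmono.monotone (Nat.zero_le n)
    rw [ha0] at h1
    exact (le_max_right _ _).trans h1
  · intro n
    rw [has]
    exact hst3 _ _

end Vale.Agent.P307.R2.H301
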