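import Vale.Agent.P307.R2.H301.Base

set_option linter.unusedSectionVars false

universe u v w

open FirstOrder Cardinal Set

namespace Vale.Agent.P307.R2.H301

open Vale.Agent.P307 Vale.Agent.P307.H304 Vale.Agent.P307.R2.H287 Language.Structure
  Language.Substructure

variable {L : Language.{u, u}}
variable {M N P : Type u} [L.Structure M] [L.Structure N] [L.Structure P]

/-- A criterion for `IsoS`. -/
theorem isoS_of {f : M → N} {S : L.Substructure M} {T : L.Substructure N}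
    (hm : ∀ x ∈ S, f x ∈ T) (hs : ∀ y ∈ T, ∃ x ∈ S, f x = y)
    (hi : ∀ x ∈ S, ∀ y ∈ S, f x = f y → x = y)
    (hf : ∀ (n : ℕ) (g : L.Functions n) (x : Fin n → M), (∀ k, x k ∈ S) →
      f (funMap g x) = funMap g fun k => f (x k))
    (hr : ∀ (n : ℕ) (r : L.Relations n) (x : Fin n → M), (∀ k, x k ∈ S) →
      (RelMap r (fun k => f (x k)) ↔ RelMap r x)) : IsoS f S T := by
  refine ⟨{ toEquiv := Equiv.ofBijective (fun x : S => (⟨f x, hm x x.2⟩ : T)) ⟨?_, ?_⟩
            map_fun' := ?_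
            map_rel' := ?_ }, fun _ => rfl⟩
  · intro x y hxy
    exact Subtype.ext (hi x x.2 y y.2 (congrArg Subtype.val hxy))
  · rintro ⟨y, hy⟩
    obtain ⟨x, hx, hxy⟩ := hs y hy
    exact ⟨⟨x, hx⟩, Subtype.ext hxy⟩
  · intro n g x
    exact Subtype.ext (hf n g (fun k => (x k : M)) fun k => (x k).2)
  · intro n r x
    exact hr n r (fun k => (x k : M)) fun k => (x k).2

theorem IsoS.map_fun {f : M → N} {S : L.Substructure M} {T : L.Substructure N}
    (h : IsoS f S T) {n : ℕ} (g : L.Functions n) {x : Fin n → M} (hx : ∀ k, x k ∈ S) :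
    f (funMap g x) = funMap g fun k => f (x k) := by
  obtain ⟨e, he⟩ := h
  have h1 := he (funMap g fun k => (⟨x k, hx k⟩ : S))
  have h2 := congrArg Subtype.val (e.map_fun g fun k => (⟨x k, hx k⟩ : S))
  refine (h1.trans h2).trans ?_
  change funMap g (fun k => ((e ⟨x k, hx k⟩ : T) : N)) = _
  congr 1
  funext k
  exact (he ⟨x k, hx k⟩).symm

theorem IsoS.map_rel {f : M → N} {S : L.Substructure M} {T : L.Substructure N}
    (h : IsoS f S T) {n : ℕ} (r : L.Relations n) {x : Fin n → M} (hx : ∀ k, x k ∈ S) :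
    RelMap r (fun k => f (x k)) ↔ RelMap r x := by
  obtain ⟨e, he⟩ := h
  have h2 := e.map_rel r fun k => (⟨x k, hx k⟩ : S)
  have h3 : (fun k => f (x k)) = fun k => ((e ⟨x k, hx k⟩ : T) : N) := by
    funext k
    exact he ⟨x k, hx k⟩
  rw [h3]
  exact h2

/-- Unions of increasing sequences of isomorphisms. -/
theorem isoS_iUnion {f : M → N} {S : ℕ → L.Substructure M} {T : ℕ → L.Substructure N}
    (hS : Monotone S) (h : ∀ n, IsoS f (S n) (T n)) {S' : L.Substructure M}
    {T' : L.Substructure N} (hS' : ∀ x, x ∈ S' ↔ ∃ n, x ∈ S n)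
    (hT' : ∀ y, y ∈ T' ↔ ∃ n, y ∈ T n) : IsoS f S' T' := by
  have hfin : ∀ (n : ℕ) (x : Fin n → M), (∀ k, x k ∈ S') → ∃ m, ∀ k, x k ∈ S m := by
    intro n x hx
    choose m hm using fun k => (hS' _).1 (hx k)
    exact ⟨Finset.univ.sup m, fun k => hS (Finset.le_sup (Finset.mem_univ k)) (hm k)⟩
  refine isoS_of ?_ ?_ ?_ ?_ ?_
  · intro x hx
    obtain ⟨n, hn⟩ := (hS' x).1 hx
    obtain ⟨e, he⟩ := h n
    refine (hT' _).2 ⟨n, ?_⟩
    have h1 := he ⟨x, hn⟩
    change f x = _ at h1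
    rw [h1]
    exact (e ⟨x, hn⟩).2
  · intro y hy
    obtain ⟨n, hn⟩ := (hT' y).1 hy
    obtain ⟨e, he⟩ := h n
    refine ⟨e.symm ⟨y, hn⟩, (hS' _).2 ⟨n, (e.symm ⟨y, hn⟩).2⟩, ?_⟩
    rw [he]
    exact congrArg Subtype.val (e.apply_symm_apply ⟨y, hn⟩)
  · intro x hx y hy hxy
    obtain ⟨m, hm⟩ := hfin 2 ![x, y] (by
      intro k
      fin_cases k
      · exact hx
      · exact hy)
    obtain ⟨e, he⟩ := h m
    have h1 := he ⟨x, hm 0⟩
    have h2 := he ⟨y, hm 1⟩
    change f x = _ at h1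
    change f y = _ at h2
    have h3 : e ⟨x, hm 0⟩ = e ⟨y, hm 1⟩ := Subtype.ext (by rw [← h1, ← h2, hxy])
    exact congrArg Subtype.val (e.injective h3)
  · intro n g x hx
    obtain ⟨m, hm⟩ := hfin n x hx
    exact (h m).map_fun g hm
  · intro n r x hx
    obtain ⟨m, hm⟩ := hfin n x hx
    exact (h m).map_rel r hm

/-- Coherent functions have a union. -/
theorem exists_union_fun {S : ℕ → Set M} (hS : Monotone S) (g : ℕ → M → N)
    (hg : ∀ n, ∀ x ∈ S n, g (n + 1) x = g n x) :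
    ∃ F : M → N, ∀ n, ∀ x ∈ S n, F x = g n x := by
  classical
  have hg2 : ∀ n m, n ≤ m → ∀ x ∈ S n, g m x = g n x := by
    intro n m hnm
    induction m, hnm using Nat.le_induction with
    | base => intro x _; rfl
    | succ m hnm ih =>
      intro x hx
      rw [hg m x (hS hnm hx), ih x hx]
  refine ⟨fun x => if h : ∃ n, x ∈ S n then g (Nat.find h) x else g 0 x, fun n x hx => ?_⟩
  have h : ∃ n, x ∈ S n := ⟨n, hx⟩
  change (if h : ∃ n, x ∈ S n then g (Nat.find h) x else g 0 x) = _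
  rw [dif_pos h]
  exact (hg2 _ _ (Nat.find_min' h hx) x (Nat.find_spec h)).symm

/-- Unions of increasing sequences of strong substructures. -/
theorem le_iSup_nat {K : AEC L} {S : ℕ → L.Substructure M} (hS : Monotone S)
    (h : ∀ n, K.le (S n)) : K.le (⨆ n, S n) := by
  have h1 := AEC.le_iSup_directed (K := K) (fun n : ULift.{u} ℕ => S n.down)
    (fun a b hab => hS hab) fun n => h _
  convert h1 using 1
  exact (Equiv.iSup_comp (g := fun n : ℕ => S n) Equiv.ulift).symm

theorem mem_iSup_nat {S : ℕ → L.Substructure M} (hS : Monotone S) (x : M) :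
    x ∈ (⨆ n, S n) ↔ ∃ n, x ∈ S n := by
  constructor
  · intro hx
    let T : L.Substructure M :=
      { carrier := {x | ∃ n, x ∈ S n}
        fun_mem := by
          intro n g x hx
          choose m hm using hx
          exact ⟨Finset.univ.sup m, (S _).fun_mem g x fun k =>
            hS (Finset.le_sup (Finset.mem_univ k)) (hm k)⟩ }
    have h1 : (⨆ n, S n) ≤ T := iSup_le fun n x hx => ⟨n, hx⟩
    exact h1 hx
  · rintro ⟨n, hn⟩
    exact le_iSup S n hn

/-- The closure of an increasing union. -/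
theorem mem_cl_iff_nat {K : AEC L} {A : ℕ → Set M} (hA : Monotone A)
    (h : ∀ n, K.le (cl K (A n))) {A' : Set M} (hA' : ∀ x ∈ A', ∃ n, x ∈ A n)
    (hA2 : ∀ n, A n ⊆ A') (x : M) : x ∈ cl K A' ↔ ∃ n, x ∈ cl K (A n) := by
  have hmono : Monotone fun n => cl K (A n) := fun n m hnm =>
    sInf_le_sInf fun T hT => ⟨hT.1, (hA hnm).trans hT.2⟩
  constructor
  · intro hx
    have h1 : cl K A' ≤ ⨆ n, cl K (A n) := by
      refine sInf_le ⟨le_iSup_nat hmono h, fun y hy => ?_⟩
      obtain ⟨n, hn⟩ := hA' y hy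
      have h2 : y ∈ cl K (A n) := by
        change y ∈ sInf _
        rw [Language.Substructure.mem_sInf]
        intro T hT
        exact hT.2 hn
      exact le_iSup (fun n => cl K (A n)) n h2
    exact (mem_iSup_nat hmono x).1 (h1 hx)
  · rintro ⟨n, hn⟩
    have h1 : cl K (A n) ≤ cl K A' := sInf_le_sInf fun T hT => ⟨hT.1, (hA2 n).trans hT.2⟩
    exact h1 hn

end Vale.Agent.P307.R2.H301
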